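import Vale.Agent.P110.Exist.Defs

/-! Character letters: the Fourier coefficients are one point mass or flat Gauss sums. -/

namespace Vale.Agent.P110.Exist

open scoped BigOperators ComplexConjugate
open Finset

namespace CharLetter

variable {ℓ : ℕ} [Fact ℓ.Prime]

theorem stdAddChar_natCast_mul (a : ℤ) (r : ℕ) :
    ZMod.stdAddChar ((a : ZMod ℓ) * (r : ZMod ℓ)) = fe (a * r / ℓ) := by
  have : (a : ZMod ℓ) * (r : ZMod ℓ) = ((a * r : ℤ) : ZMod ℓ) := by push_cast; ring
  rw [this, ZMod.stdAddChar_coe, fe]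
  congr 1
  push_cast
  ring

theorem sum_range_eq_univ (F : ZMod ℓ → ℂ) : ∑ r ∈ range ℓ, F (r : ZMod ℓ) = ∑ x, F x := by
  refine Finset.sum_bij' (fun r _ => (r : ZMod ℓ)) (fun x _ => x.val) ?_ ?_ ?_ ?_ ?_
  · intros; exact mem_univ _
  · intro x _; exact mem_range.2 (ZMod.val_lt x)
  · intro r hr; exact ZMod.val_cast_of_lt (mem_range.1 hr)
  · intro x _; exact ZMod.natCast_zmod_val x
  · intros; rfl

theorem norm_gaussSum_sq {χ : MulChar (ZMod ℓ) ℂ} (hχ : χ ≠ 1) {ψ : AddChar (ZMod ℓ) ℂ}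
    (hψ : ψ.IsPrimitive) : ‖gaussSum χ ψ‖ ^ 2 = ℓ := by
  have h := gaussSum_mul_gaussSum_eq_card hχ hψ
  rw [ZMod.card, ← star_gaussSum_eq] at h
  have h2 : ((‖gaussSum χ ψ‖ ^ 2 : ℝ) : ℂ) = ((ℓ : ℝ) : ℂ) := by
    rw [Complex.ofReal_natCast, ← h, RCLike.star_def, Complex.mul_conj, Complex.normSq_eq_norm_sq]
  exact_mod_cast h2

end CharLetter

open CharLetter in
theorem charLetterGoal : CharLetterGoal := by
  intro S ℓ q b hℓ hq hdvd
  have : Fact ℓ.Prime := ⟨hℓ⟩
  have hℓ0 : 0 < ℓ := hℓ.pos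
  have hℓC : (ℓ : ℂ) ≠ 0 := by simp [hℓ0.ne']
  have hζ : IsPrimitiveRoot (fe (1 / q)) q := by
    have := Complex.isPrimitiveRoot_exp q (by omega)
    convert this using 1
    rw [fe]
    congr 1
    push_cast
    ring
  obtain ⟨χ, hord⟩ := MulChar.exists_mulChar_orderOf (ZMod ℓ) (n := q)
    (by rwa [ZMod.card]) hζ
  have hfe_pow : ∀ (x : ℝ) (k : ℕ), fe x ^ k = fe (k * x) := by
    intro x k
    rw [fe, fe, ← Complex.exp_nat_mul]
    congr 1
    push_cast
    ring
  have hfe_add : ∀ x y : ℝ, fe (x + y) = fe x * fe y := by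
    intro x y
    rw [fe, fe, fe, ← Complex.exp_add]
    congr 1
    push_cast
    ring
  refine ⟨fun m r => fe (m * b * r / ℓ) * if q ∣ m then 1 else (χ ^ m) (r : ZMod ℓ), ?_, ?_⟩
  · intro r
    by_cases hr : (r : ZMod ℓ) = 0
    · refine ⟨q, fun _ => 1 / q, fun i => b * r / ℓ + i.val / q, fun _ => by positivity, ?_, ?_⟩
      · rw [Finset.sum_const, Finset.card_univ, Fintype.card_fin, nsmul_eq_mul]
        field_simp
      · intro m _
        have e : ∀ i : Fin q, ((1 / q : ℝ) : ℂ) * fe (m * (b * r / ℓ + i.val / q)) =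
            fe (m * b * r / ℓ) * ((q : ℂ)⁻¹ * (fe (1 / q) ^ m) ^ i.val) := by
          intro i
          have e1 : (fe (1 / q) ^ m) ^ i.val = fe (m * (i.val / q)) := by
            rw [← pow_mul, hfe_pow]
            congr 1
            push_cast
            ring
          rw [e1, mul_add, hfe_add, show (m : ℝ) * (b * r / ℓ) = m * b * r / ℓ by ring]
          push_cast
          ring
        show fe (m * b * r / ℓ) * (if q ∣ m then 1 else (χ ^ m) (r : ZMod ℓ)) = _
        rw [Finset.sum_congr rfl fun i _ => e i, ← Finset.mul_sum, ← Finset.mul_sum]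
        congr 1
        by_cases hm : q ∣ m
        · rw [if_pos hm, (hζ.pow_eq_one_iff_dvd m).2 hm]
          simp [show (q : ℂ) ≠ 0 by simp; omega]
        · rw [if_neg hm, hr, MulChar.map_zero]
          have hne : fe (1 / q) ^ m ≠ 1 := fun h => hm ((hζ.pow_eq_one_iff_dvd m).1 h)
          rw [Fin.sum_univ_eq_sum_range (fun i => (fe (1 / q) ^ m) ^ i), geom_sum_eq hne,
            ← pow_mul, mul_comm m, pow_mul, hζ.pow_eq_one, one_pow, sub_self, zero_div, mul_zero]
    · have hu : IsUnit (r : ZMod ℓ) := Ne.isUnit hr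
      have h1 : χ (r : ZMod ℓ) ^ q = 1 := by
        rw [← MulChar.pow_apply' χ (by omega), ← hord, pow_orderOf_eq_one, MulChar.one_apply hu]
      have : NeZero q := ⟨by omega⟩
      obtain ⟨a, -, ha⟩ := hζ.eq_pow_of_pow_eq_one h1
      refine ⟨1, fun _ => 1, fun _ => b * r / ℓ + a / q, fun _ => zero_le_one, by simp, ?_⟩
      intro m _
      have e : (χ ^ m) (r : ZMod ℓ) = fe (m * (a / q)) := by
        rcases Nat.eq_zero_or_pos m with rfl | hm
        · simp [fe, MulChar.one_apply hu]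
        · rw [MulChar.pow_apply' χ hm.ne', ← ha, ← pow_mul, hfe_pow]
          congr 1
          push_cast
          ring
      simp only [Finset.univ_unique, Finset.sum_singleton, Complex.ofReal_one, one_mul]
      rw [mul_add, hfe_add, show (m : ℝ) * (b * r / ℓ) = m * b * r / ℓ by ring]
      congr 1
      by_cases hm : q ∣ m
      · rw [if_pos hm, ← e, orderOf_dvd_iff_pow_eq_one.1 (hord ▸ hm), MulChar.one_apply hu]
      · rw [if_neg hm, e]
  · intro m _ u hu
    set a : ℤ := (m * b : ℤ) - u with ha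
    set F : ZMod ℓ → ℂ := fun x => if q ∣ m then 1 else (χ ^ m) x
    have hco : coef1 ℓ (fun r => fe (m * b * r / ℓ) *
        if q ∣ m then 1 else (χ ^ m) (r : ZMod ℓ)) u =
        (ℓ : ℂ)⁻¹ * ∑ x, F x * ZMod.stdAddChar ((a : ZMod ℓ) * x) := by
      rw [coef1, ← sum_range_eq_univ]
      congr 1
      refine Finset.sum_congr rfl fun r _ => ?_
      rw [stdAddChar_natCast_mul a r, mul_comm (fe _) (ite _ _ _), mul_assoc, ← hfe_add]
      congr 2
      rw [ha]
      push_cast
      ring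
    have hiff : (a : ZMod ℓ) = 0 ↔ u = m * b % ℓ := by
      rw [ha]
      push_cast
      rw [sub_eq_zero, ← Nat.cast_mul, ZMod.natCast_eq_natCast_iff', Nat.mod_eq_of_lt hu]
      exact eq_comm
    rw [hco, norm_mul, mul_pow, norm_inv, Complex.norm_natCast]
    have hℓR : (ℓ : ℝ) ≠ 0 := by simp [hℓ0.ne']
    by_cases hm : q ∣ m
    · rw [if_pos hm]
      simp only [F, if_pos hm, one_mul]
      simp_rw [mul_comm (a : ZMod ℓ)]
      rw [AddChar.sum_mulShift (a : ZMod ℓ) (ZMod.isPrimitive_stdAddChar ℓ), ZMod.card]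
      by_cases ha0 : (a : ZMod ℓ) = 0
      · rw [if_pos (hiff.1 ha0), if_pos ha0, Complex.norm_natCast]
        field_simp
      · rw [if_neg (mt hiff.2 ha0), if_neg ha0]
        simp
    · rw [if_neg hm]
      have hne : χ ^ m ≠ 1 := fun h => hm (hord ▸ orderOf_dvd_iff_pow_eq_one.2 h)
      simp only [F, if_neg hm]
      by_cases ha0 : (a : ZMod ℓ) = 0
      · rw [if_pos (hiff.1 ha0)]
        simp [ha0, MulChar.sum_eq_zero_of_ne_one hne]
      · rw [if_neg (mt hiff.2 ha0)]
        have hg : (∑ x, (χ ^ m) x * ZMod.stdAddChar ((a : ZMod ℓ) * x)) =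
            gaussSum (χ ^ m) (AddChar.mulShift ZMod.stdAddChar (a : ZMod ℓ)) := by
          simp [gaussSum, AddChar.mulShift_apply]
        have hp : (AddChar.mulShift (ZMod.stdAddChar (N := ℓ)) (a : ZMod ℓ)).IsPrimitive :=
          AddChar.IsPrimitive.of_ne_one (ZMod.isPrimitive_stdAddChar ℓ ha0)
        rw [hg, norm_gaussSum_sq hne hp]
        field_simp

end Vale.Agent.P110.Exist
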