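import Vale.Agent.P110.Exist.Defs

/-!
Letters on products of single and paired coordinates: the moments multiply and so do the Fourier
coefficients.
-/

namespace Vale.Agent.P110.Exist.Letters

open scoped BigOperators
open Finset

namespace Prod

lemma fe_sum {κ : Type*} (T : Finset κ) (x : κ → ℝ) : fe (∑ i ∈ T, x i) = ∏ i ∈ T, fe (x i) := by
  simp [fe, Finset.mul_sum, Finset.sum_mul, Complex.exp_sum]

lemma isMom_one (S : Finset ℕ) : IsMom S (fun _ => 1) :=
  ⟨1, fun _ => 1, fun _ => 0, fun _ => zero_le_one, by simp, fun m _ => by simp [fe]⟩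

lemma isMom_mul {S : Finset ℕ} {g h : ℕ → ℂ} (hg : IsMom S g) (hh : IsMom S h) :
    IsMom S (fun m => g m * h m) := by
  obtain ⟨n, w, ξ, hw, hw1, hgm⟩ := hg
  obtain ⟨k, v, τ, hv, hv1, hhm⟩ := hh
  let e := (finProdFinEquiv (m := n) (n := k)).symm
  refine ⟨n * k, fun i => w (e i).1 * v (e i).2, fun i => ξ (e i).1 + τ (e i).2,
    fun i => mul_nonneg (hw _) (hv _), ?_, fun m hm => ?_⟩
  · rw [e.sum_comp (fun p : Fin n × Fin k => w p.1 * v p.2), Fintype.sum_prod_type]
    simp only [← Finset.mul_sum, hv1, mul_one, hw1]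
  · beta_reduce
    rw [e.sum_comp (fun p : Fin n × Fin k => ((w p.1 * v p.2 : ℝ) : ℂ) * fe (m * (ξ p.1 + τ p.2))),
      Fintype.sum_prod_type, hgm m hm, hhm m hm, sum_mul_sum]
    refine sum_congr rfl fun i _ => sum_congr rfl fun j _ => ?_
    simp only [fe, mul_add, Complex.ofReal_mul, Complex.ofReal_add, add_mul, Complex.exp_add]
    ring

lemma isMom_prod {κ : Type*} (T : Finset κ) {S : Finset ℕ} {g : κ → ℕ → ℂ}
    (hg : ∀ i ∈ T, IsMom S (g i)) : IsMom S (fun m => ∏ i ∈ T, g i m) := by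
  classical
  induction T using Finset.induction_on with
  | empty => simpa using isMom_one S
  | insert a T ha ih =>
    simp only [prod_insert ha]
    exact isMom_mul (hg a (mem_insert_self a T)) (ih fun i hi => hg i (mem_insert_of_mem hi))

/-- Residue vectors of paired coordinates as vectors of pairs. -/
def pairEquiv {B : Type} (lb : B × Bool → ℕ) :
    Res lb ≃ ∀ b, Fin (lb (b, false)) × Fin (lb (b, true)) where
  toFun r b := (r (b, false), r (b, true))
  invFun p
    | (b, false) => (p b).1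
    | (b, true) => (p b).2
  left_inv r := funext fun ⟨_, c⟩ => by cases c <;> rfl
  right_inv _ := rfl

variable {A B : Type} [Fintype A] [DecidableEq A] [Fintype B] [DecidableEq B]

/-- A product letter. -/
def prodLetter (la : A → ℕ) (lb : B × Bool → ℕ) (ga : A → ℕ → ℕ → ℂ) (gb : B → ℕ → ℕ → ℕ → ℂ)
    (m : ℕ) (r : Res (Sum.elim la lb)) : ℂ :=
  (∏ i, ga i m (r (Sum.inl i))) * ∏ i, gb i m (r (Sum.inr (i, false))) (r (Sum.inr (i, true)))

omit [DecidableEq A] [DecidableEq B] in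
lemma isMom_prodLetter {S : Finset ℕ} (la : A → ℕ) (lb : B × Bool → ℕ) {ga : A → ℕ → ℕ → ℂ}
    {gb : B → ℕ → ℕ → ℕ → ℂ} (ha : ∀ i r, IsMom S (fun m => ga i m r))
    (hb : ∀ i x y, IsMom S (fun m => gb i m x y)) (r : Res (Sum.elim la lb)) :
    IsMom S (fun m => prodLetter la lb ga gb m r) :=
  isMom_mul (isMom_prod univ fun i _ => ha i _) (isMom_prod univ fun i _ => hb i _ _)

/-- Sums of products over residue vectors. -/
lemma sum_blocks {R : Type*} [CommSemiring R] (la : A → ℕ) (lb : B × Bool → ℕ)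
    (F : ∀ i, Fin (la i) → R) (G : ∀ i, Fin (lb (i, false)) → Fin (lb (i, true)) → R) :
    ∑ r : Res (Sum.elim la lb),
        (∏ i, F i (r (Sum.inl i))) * ∏ i, G i (r (Sum.inr (i, false))) (r (Sum.inr (i, true))) =
      (∏ i, ∑ x, F i x) * ∏ i, ∑ x, ∑ y, G i x y := by
  rw [Fintype.prod_sum]
  conv_rhs => arg 2; arg 2; ext i; rw [← Fintype.sum_prod_type']
  rw [Fintype.prod_sum, sum_mul_sum, ← Fintype.sum_prod_type']
  let e : Res (Sum.elim la lb) ≃
      (∀ i, Fin (la i)) × ∀ b, Fin (lb (b, false)) × Fin (lb (b, true)) :=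
    (Equiv.sumPiEquivProdPi fun k => Fin (Sum.elim la lb k)).trans
      ((Equiv.refl _).prodCongr (pairEquiv lb))
  exact Fintype.sum_equiv e _ _ fun r => rfl

lemma coef_prodLetter (la : A → ℕ) (lb : B × Bool → ℕ) (ga : A → ℕ → ℕ → ℂ)
    (gb : B → ℕ → ℕ → ℕ → ℂ) (m : ℕ) (u : Res (Sum.elim la lb)) :
    coef (prodLetter la lb ga gb m) u =
      (∏ i, coef1 (la i) (ga i m) (u (Sum.inl i))) *
        ∏ i, coef2 (lb (i, false)) (lb (i, true)) (gb i m)
          (u (Sum.inr (i, false))) (u (Sum.inr (i, true))) := by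
  set F : ∀ i, Fin (la i) → ℂ := fun i x =>
    ga i m x * fe (-(((u (Sum.inl i) : ℕ) : ℝ) * ((x : ℕ) : ℝ) / (la i : ℝ)))
  set G : ∀ i, Fin (lb (i, false)) → Fin (lb (i, true)) → ℂ := fun i x y =>
    gb i m x y * (fe (-(((u (Sum.inr (i, true)) : ℕ) : ℝ) * ((y : ℕ) : ℝ) / (lb (i, true) : ℝ))) *
      fe (-(((u (Sum.inr (i, false)) : ℕ) : ℝ) * ((x : ℕ) : ℝ) / (lb (i, false) : ℝ))))
  have h : ∀ r : Res (Sum.elim la lb),
      prodLetter la lb ga gb m r *
          fe (-∑ k, ((u k : ℕ) : ℝ) * ((r k : ℕ) : ℝ) / ((Sum.elim la lb k : ℕ) : ℝ)) =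
        (∏ i, F i (r (Sum.inl i))) * ∏ i, G i (r (Sum.inr (i, false))) (r (Sum.inr (i, true))) := by
    intro r
    rw [← Finset.sum_neg_distrib, fe_sum, Fintype.prod_sum_type,
      Fintype.prod_prod_type (f := fun k : B × Bool => fe _)]
    simp only [prodLetter, F, G, prod_mul_distrib, Fintype.prod_bool, Sum.elim_inl, Sum.elim_inr]
    ring
  unfold coef
  rw [sum_congr rfl fun r _ => h r, sum_blocks, Fintype.prod_sum_type, Fintype.prod_prod_type]
  simp only [Sum.elim_inl, Sum.elim_inr, Fintype.prod_bool, mul_inv, coef1, coef2, F, G,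
    Finset.mul_sum, prod_mul_distrib, ← prod_inv_distrib]
  simp only [← Fin.sum_univ_eq_sum_range, ← Finset.mul_sum, prod_mul_distrib, Finset.sum_mul,
    mul_assoc]
  ring

/-- The energy of a product letter is the product of the block energies. -/
lemma sum_sq_coef_prodLetter (la : A → ℕ) (lb : B × Bool → ℕ) (ga : A → ℕ → ℕ → ℂ)
    (gb : B → ℕ → ℕ → ℕ → ℂ) (m : ℕ) :
    ∑ u, ‖coef (prodLetter la lb ga gb m) u‖ ^ 2 =
      (∏ i, ∑ x ∈ range (la i), ‖coef1 (la i) (ga i m) x‖ ^ 2) *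
        ∏ i, ∑ x ∈ range (lb (i, false)), ∑ y ∈ range (lb (i, true)),
          ‖coef2 (lb (i, false)) (lb (i, true)) (gb i m) x y‖ ^ 2 := by
  simp only [coef_prodLetter, norm_mul, norm_prod, mul_pow, ← prod_pow]
  rw [sum_blocks la lb (fun i x => ‖coef1 (la i) (ga i m) (x : ℕ)‖ ^ 2) fun i x y =>
    ‖coef2 (lb (i, false)) (lb (i, true)) (gb i m) (x : ℕ) (y : ℕ)‖ ^ 2]
  simp only [← Fin.sum_univ_eq_sum_range]

end Prod

/-- Products of single and paired coordinates. -/
theorem prodLetterGoal : ProdLetterGoal :=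
  fun _ _ _ _ _ _ _ la lb ga gb ha hb =>
    ⟨Prod.prodLetter la lb ga gb, Prod.isMom_prodLetter la lb ha hb,
      Prod.coef_prodLetter la lb ga gb⟩

end Vale.Agent.P110.Exist.Letters
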