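import Vale.Agent.P110.Exist.Letters.Mom

/-!
# Deleting a few frequencies of the moments by a small mixture
-/

namespace Vale.Agent.P110.Exist

open scoped BigOperators ComplexConjugate
open Finset

theorem projGoal : ProjGoal := by
  intro S ℓ g Rem ε _ hS hε hε1 hg hRem hsmall
  set d : ℕ → ℕ → ℂ := fun m r => -(((1 - ε : ℝ) : ℂ) / ε) *
    ∑ u ∈ Rem m, coef1 ℓ (g m) u * fe ((u : ℝ) * r / ℓ) with hd
  refine ⟨fun m r => ((1 - ε : ℝ) : ℂ) * g m r + (ε : ℂ) * d m r, fun r => ?_, fun m hm u hu => ?_⟩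
  · refine (hg r).convex (IsMom.small hS (fun m => d m r) ?_) hε.le hε1
    have hd' : ∀ m ∈ S, ‖d m r‖ ≤ 1 / (2 * S.card) := fun m hm => by
      simp only [hd, norm_mul, norm_neg, norm_div, Complex.norm_real,
        Real.norm_of_nonneg (sub_nonneg.2 hε1), Real.norm_of_nonneg hε.le]
      calc (1 - ε) / ε * ‖∑ u ∈ Rem m, coef1 ℓ (g m) u * fe ((u : ℝ) * r / ℓ)‖
          ≤ 1 / ε * (ε / (2 * S.card)) := by
            refine mul_le_mul ?_ ((norm_sum_le _ _).trans ?_) (norm_nonneg _) (by positivity)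
            · gcongr; linarith
            · simpa [norm_fe] using hsmall m hm
        _ = 1 / (2 * S.card) := by field_simp
    refine (sum_le_card_nsmul _ _ _ hd').trans ?_
    rw [nsmul_eq_mul]
    rcases Nat.eq_zero_or_pos S.card with h | h
    · simp [h]
    · exact le_of_eq (by field_simp)
  · have hεC : (ε : ℂ) ≠ 0 := Complex.ofReal_ne_zero.2 hε.ne'
    rw [coef1_add, coef1_const_mul, coef1_const_mul]
    simp only [hd]
    rw [coef1_const_mul, coef1_finsetSum, sum_congr rfl fun v hv => by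
      rw [coef1_const_mul, coef1_fe (Finset.mem_range.1 (hRem m hm hv)) hu]]
    simp only [mul_ite, mul_one, mul_zero, sum_ite_eq']
    split_ifs with h <;> field_simp <;> ring

end Vale.Agent.P110.Exist
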