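import Vale.Agent.P110.Exist.Defs

/-!
# Quadratic letters and bent pairs

Both letters are point masses; their flatness is orthogonality of the characters of `ℤ/n`.
-/

namespace Vale.Agent.P110.Exist

open scoped BigOperators ComplexConjugate
open Finset

namespace QuadPair

lemma isMom_fe (S : Finset ℕ) (ξ : ℝ) : IsMom S (fun m => fe (m * ξ)) :=
  ⟨1, fun _ => 1, fun _ => ξ, fun _ => zero_le_one, by simp, fun m _ => by simp⟩

lemma fe_add (a b : ℝ) : fe (a + b) = fe a * fe b := by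
  simp only [fe]
  rw [← Complex.exp_add]
  congr 1
  push_cast
  ring

lemma norm_fe (a : ℝ) : ‖fe a‖ = 1 := Complex.norm_exp_ofReal_mul_I _

variable {n : ℕ} [NeZero n]

lemma fe_int (k : ℤ) : fe ((k : ℝ) / n) = ZMod.stdAddChar (k : ZMod n) := by
  rw [ZMod.stdAddChar_coe, fe]
  congr 1
  push_cast
  ring

lemma sum_range_cast {M : Type*} [AddCommMonoid M] (F : ZMod n → M) :
    ∑ r ∈ range n, F (r : ZMod n) = ∑ x, F x :=
  Finset.sum_nbij' (fun r : ℕ => (r : ZMod n)) (fun x => x.val) (fun _ _ => mem_univ _)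
    (fun x _ => mem_range.2 x.val_lt) (fun _ hr => ZMod.val_cast_of_lt (mem_range.1 hr))
    (fun x _ => ZMod.natCast_zmod_val x) (fun _ _ => rfl)

lemma sum_char (b : ZMod n) :
    ∑ x : ZMod n, ZMod.stdAddChar (x * b) = if b = 0 then (n : ℂ) else 0 := by
  rw [AddChar.sum_mulShift b (ZMod.isPrimitive_stdAddChar n), ZMod.card]
  split_ifs <;> simp

/-- a quadratic sum with unit leading coefficient has modulus `√n` -/
lemma norm_sq_quad {c d : ZMod n} (hc : IsUnit (2 * c)) :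
    ‖∑ r : ZMod n, ZMod.stdAddChar (c * r ^ 2 + d * r)‖ ^ 2 = (n : ℝ) := by
  set ψ : AddChar (ZMod n) ℂ := ZMod.stdAddChar with hψ
  have e : ((‖∑ r : ZMod n, ψ (c * r ^ 2 + d * r)‖ ^ 2 : ℝ) : ℂ) = (n : ℂ) := by
    have h1 : ∀ r h : ZMod n, ψ (c * (r + h) ^ 2 + d * (r + h)) * conj (ψ (c * r ^ 2 + d * r)) =
        ψ (c * h ^ 2 + d * h) * ψ (r * (2 * c * h)) := fun r h => by
      rw [← AddChar.map_neg_eq_conj, ← AddChar.map_add_eq_mul, ← AddChar.map_add_eq_mul]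
      congr 1
      ring
    rw [Complex.ofReal_pow, ← Complex.mul_conj', map_sum, Finset.sum_mul_sum, Finset.sum_comm]
    calc ∑ r, ∑ s, ψ (c * s ^ 2 + d * s) * conj (ψ (c * r ^ 2 + d * r))
        = ∑ r, ∑ h, ψ (c * h ^ 2 + d * h) * ψ (r * (2 * c * h)) :=
          Finset.sum_congr rfl fun r _ =>
            (Equiv.sum_comp (Equiv.addLeft r)
              (fun s => ψ (c * s ^ 2 + d * s) * conj (ψ (c * r ^ 2 + d * r)))).symm.trans
              (Finset.sum_congr rfl fun h _ => h1 r h)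
      _ = ∑ h, ψ (c * h ^ 2 + d * h) * (if 2 * c * h = 0 then (n : ℂ) else 0) := by
          rw [Finset.sum_comm]
          simp only [← Finset.mul_sum, hψ, sum_char]
      _ = (n : ℂ) := by
          simp only [hc.mul_right_eq_zero, mul_ite, mul_zero]
          simp
  exact_mod_cast e

end QuadPair

open QuadPair in
theorem quadLetterGoal : QuadLetterGoal := by
  intro S n hn hS
  have : NeZero n := ⟨hn.pos.ne'⟩
  refine ⟨fun m r => fe (m * ((r : ℝ) ^ 2 / n)), fun r => isMom_fe S _, fun m hm u _ => ?_⟩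
  have e : ∑ r ∈ range n, fe (m * ((r : ℝ) ^ 2 / n)) * fe (-((u : ℝ) * r / n)) =
      ∑ x : ZMod n, ZMod.stdAddChar ((m : ZMod n) * x ^ 2 + -(u : ZMod n) * x) := by
    rw [← sum_range_cast]
    refine Finset.sum_congr rfl fun r _ => ?_
    have h : (m : ℝ) * ((r : ℝ) ^ 2 / n) + -((u : ℝ) * r / n) =
        (((m * r ^ 2 : ℤ) + -(u : ℤ) * r : ℤ) : ℝ) / n := by push_cast; ring
    rw [← fe_add, h, fe_int]
    push_cast
    rfl
  have hu : IsUnit (2 * (m : ZMod n)) := by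
    have h := (ZMod.isUnit_iff_coprime (2 * m) n).2
      (Nat.Coprime.mul_left (Nat.coprime_two_left.2 hn) (hS m hm))
    simpa using h
  rw [coef1, e, norm_mul, mul_pow, norm_sq_quad hu, norm_inv, Complex.norm_natCast]
  have : (n : ℝ) ≠ 0 := NeZero.ne _
  field_simp

open QuadPair in
theorem pairLetterGoal : PairLetterGoal := by
  intro S ℓ Y A hY hA hcard hS
  classical
  have : NeZero Y := ⟨hY.ne'⟩
  obtain ⟨a₀, ha₀⟩ : A.Nonempty := Finset.card_pos.1 (by omega)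
  have : NeZero ℓ := ⟨fun h => by simpa [h] using mem_range.1 (hA ha₀)⟩
  set w : Fin Y → ℕ := fun y => A.orderEmbOfFin hcard y with hw
  have hwA : ∀ y, w y ∈ A := fun y => A.orderEmbOfFin_mem hcard y
  have hwℓ : ∀ y, w y < ℓ := fun y => mem_range.1 (hA (hwA y))
  have hwsurj : ∀ b ∈ A, ∃ y, w y = b := fun b hb => by
    have : b ∈ Set.range (A.orderEmbOfFin hcard) := by
      rw [Finset.range_orderEmbOfFin]; exact hb
    exact this
  refine ⟨fun m x y => fe (m * ((x : ℝ) * (w (Fin.ofNat Y y) : ℝ) / ℓ)),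
    fun x y => isMom_fe S _, fun m hm a ha v _ => ?_⟩
  have hinner : ∀ y, ∑ x ∈ range ℓ, fe (m * ((x : ℝ) * (w y : ℝ) / ℓ)) *
      fe (-((a : ℝ) * x / ℓ)) = if a = m * w y % ℓ then (ℓ : ℂ) else 0 := fun y => by
    have h1 : ∀ x : ℕ, fe (m * ((x : ℝ) * (w y : ℝ) / ℓ)) * fe (-((a : ℝ) * x / ℓ)) =
        ZMod.stdAddChar ((x : ZMod ℓ) * ((m : ZMod ℓ) * (w y : ZMod ℓ) - (a : ZMod ℓ))) := fun x => by
      have h : (m : ℝ) * ((x : ℝ) * (w y : ℝ) / ℓ) + -((a : ℝ) * x / ℓ) =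
          (((x : ℤ) * ((m * w y : ℤ) - a) : ℤ) : ℝ) / ℓ := by push_cast; ring
      rw [← fe_add, h, fe_int]
      push_cast
      rfl
    simp only [h1]
    rw [sum_range_cast (fun x : ZMod ℓ =>
      ZMod.stdAddChar (x * ((m : ZMod ℓ) * (w y : ZMod ℓ) - (a : ZMod ℓ)))), sum_char]
    refine if_congr ?_ rfl rfl
    rw [sub_eq_zero, ← Nat.cast_mul, ZMod.natCast_eq_natCast_iff', Nat.mod_eq_of_lt ha, eq_comm]
  have e : coef2 ℓ Y (fun x y => fe (m * ((x : ℝ) * (w (Fin.ofNat Y y) : ℝ) / ℓ))) a v =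
      (Y : ℂ)⁻¹ * ∑ y : Fin Y,
        if a = m * w y % ℓ then fe (-((v : ℝ) * (y : ℕ) / Y)) else 0 := by
    simp only [coef2, coef1, Finset.mul_sum, Finset.sum_mul]
    rw [Finset.sum_comm, Finset.sum_range]
    refine Finset.sum_congr rfl fun y _ => ?_
    rw [Fin.ofNat_val_eq_self, ← Finset.mul_sum]
    have h2 : ∀ x : ℕ, (Y : ℂ)⁻¹ * (fe (m * ((x : ℝ) * (w y : ℝ) / ℓ)) *
        fe (-((v : ℝ) * (y : ℕ) / Y))) * fe (-((a : ℝ) * x / ℓ)) =
        ((Y : ℂ)⁻¹ * fe (-((v : ℝ) * (y : ℕ) / Y))) *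
          (fe (m * ((x : ℝ) * (w y : ℝ) / ℓ)) * fe (-((a : ℝ) * x / ℓ))) := fun x => by ring
    simp only [h2, ← Finset.mul_sum, hinner]
    have hℓ : (ℓ : ℂ) ≠ 0 := NeZero.ne _
    split_ifs
    · field_simp
    · simp
  rw [e, norm_mul, mul_pow, norm_inv, Complex.norm_natCast, inv_pow]
  by_cases hex : ∃ b ∈ A, a = m * b % ℓ
  · obtain ⟨b, hb, hab⟩ := hex
    obtain ⟨y₀, rfl⟩ := hwsurj b hb
    rw [if_pos ⟨w y₀, hb, hab⟩, Finset.sum_eq_single y₀, if_pos hab, norm_fe, one_pow, mul_one,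
      one_div]
    · intro y _ hy
      refine if_neg fun hay => hy ?_
      have h := hab.symm.trans hay
      rw [← ZMod.natCast_eq_natCast_iff', Nat.cast_mul, Nat.cast_mul] at h
      have h' := ((ZMod.isUnit_iff_coprime m ℓ).2 (hS m hm)).mul_left_cancel h
      rw [ZMod.natCast_eq_natCast_iff', Nat.mod_eq_of_lt (hwℓ _), Nat.mod_eq_of_lt (hwℓ _)] at h'
      exact ((A.orderEmbOfFin hcard).injective h').symm
    · exact fun h => absurd (mem_univ _) h
  · rw [if_neg hex, Finset.sum_eq_zero fun y _ => if_neg fun hay => hex ⟨w y, hwA y, hay⟩]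
    simp

end Vale.Agent.P110.Exist
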