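import Vale.Agent.P110.Exist.Defs
import Vale.Agent.P110.Exist.Chirp

/-!
# Closure properties of moment sequences of laws on the circle
-/

namespace Vale.Agent.P110.Exist

open scoped BigOperators ComplexConjugate
open Finset

/-! ### The exponential -/

lemma fe_eq_ee : fe = ee := rfl

lemma norm_fe (x : ℝ) : ‖fe x‖ = 1 := norm_ee x

lemma fe_add (x y : ℝ) : fe (x + y) = fe x * fe y := ee_add x y

lemma fe_zero : fe 0 = 1 := ee_zero

lemma fe_neg (x : ℝ) : fe (-x) = conj (fe x) := ee_neg x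

lemma fe_int (k : ℤ) : fe k = 1 := ee_int k

lemma fe_nat_mul (x : ℝ) (n : ℕ) : fe (n * x) = fe x ^ n := ee_nat_mul x n

/-- The full sum of a character of `ℤ/M`. -/
lemma sum_fe_range (M : ℕ) (hM : 0 < M) (h : ℤ) :
    ∑ s ∈ range M, fe ((h : ℝ) * s / M) = if (M : ℤ) ∣ h then (M : ℂ) else 0 :=
  sum_ee_mul M hM h

/-- The full sum of a character of `ℤ/M`, over `Fin M`. -/
lemma sum_fe_fin (M : ℕ) (hM : 0 < M) (h : ℤ) :
    ∑ s : Fin M, fe ((h : ℝ) * (s : ℕ) / M) = if (M : ℤ) ∣ h then (M : ℂ) else 0 := by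
  rw [Fin.sum_univ_eq_sum_range (fun s : ℕ => fe ((h : ℝ) * s / M)), sum_fe_range M hM h]

/-! ### Moments -/

namespace IsMom

variable {S S' : Finset ℕ} {g g₁ g₂ : ℕ → ℂ}

/-- A law on a finite type. -/
lemma of_fintype {α : Type*} [Fintype α] (w ξ : α → ℝ) (hw : ∀ a, 0 ≤ w a) (h1 : ∑ a, w a = 1)
    (hg : ∀ m ∈ S, g m = ∑ a, (w a : ℂ) * fe (m * ξ a)) : IsMom S g := by
  set φ := (Fintype.equivFin α).symm
  refine ⟨Fintype.card α, w ∘ φ, ξ ∘ φ, fun i => hw _, ?_, fun m hm => ?_⟩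
  · rw [← h1]; exact φ.sum_comp w
  · rw [hg m hm]; exact (φ.sum_comp fun a => (w a : ℂ) * fe (m * ξ a)).symm

lemma congr (h : IsMom S g₁) (he : ∀ m ∈ S, g₂ m = g₁ m) : IsMom S g₂ := by
  obtain ⟨n, w, ξ, hw, h1, hg⟩ := h
  exact ⟨n, w, ξ, hw, h1, fun m hm => (he m hm).trans (hg m hm)⟩

lemma mono (h : IsMom S g) (hS : S' ⊆ S) : IsMom S' g := by
  obtain ⟨n, w, ξ, hw, h1, hg⟩ := h
  exact ⟨n, w, ξ, hw, h1, fun m hm => hg m (hS hm)⟩

/-- A point mass. -/
lemma point (S : Finset ℕ) (x : ℝ) : IsMom S fun m => fe (m * x) :=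
  of_fintype (α := Unit) (fun _ => 1) (fun _ => x) (fun _ => zero_le_one) (by simp)
    fun m _ => by simp

protected lemma one (S : Finset ℕ) : IsMom S fun _ => 1 :=
  (point S 0).congr fun m _ => by simp [fe_zero]

/-- The law of a sum of two independent phases. -/
protected lemma mul (h₁ : IsMom S g₁) (h₂ : IsMom S g₂) : IsMom S fun m => g₁ m * g₂ m := by
  obtain ⟨n, w, ξ, hw, h1, hg⟩ := h₁
  obtain ⟨n', w', ξ', hw', h1', hg'⟩ := h₂
  refine of_fintype (fun p : Fin n × Fin n' => w p.1 * w' p.2) (fun p => ξ p.1 + ξ' p.2)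
    (fun p => mul_nonneg (hw _) (hw' _)) ?_ fun m hm => ?_
  · rw [Fintype.sum_prod_type]
    simp only [← mul_sum, h1', mul_one, h1]
  · rw [Fintype.sum_prod_type, hg m hm, hg' m hm, sum_mul_sum]
    refine sum_congr rfl fun i _ => sum_congr rfl fun j _ => ?_
    rw [mul_add, fe_add]
    push_cast
    ring

/-- The law of a sum of finitely many independent phases. -/
protected lemma prod {β : Type*} (s : Finset β) (f : β → ℕ → ℂ) (h : ∀ b ∈ s, IsMom S (f b)) :
    IsMom S fun m => ∏ b ∈ s, f b m := by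
  classical
  induction s using Finset.induction with
  | empty => exact (IsMom.one S).congr fun m _ => by simp
  | insert b s hb ih =>
    exact ((h b (mem_insert_self _ _)).mul (ih fun x hx => h x (mem_insert_of_mem hx))).congr
      fun m _ => prod_insert hb

/-- Shifting the phase. -/
lemma shift (h : IsMom S g) (x : ℝ) : IsMom S fun m => fe (m * x) * g m := (point S x).mul h

/-- A mixture of two laws. -/
lemma convex (h₁ : IsMom S g₁) (h₂ : IsMom S g₂) {ε : ℝ} (h0 : 0 ≤ ε) (hε : ε ≤ 1) :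
    IsMom S fun m => ((1 - ε : ℝ) : ℂ) * g₁ m + (ε : ℂ) * g₂ m := by
  obtain ⟨n, w, ξ, hw, h1, hg⟩ := h₁
  obtain ⟨n', w', ξ', hw', h1', hg'⟩ := h₂
  refine of_fintype (Sum.elim (fun i => (1 - ε) * w i) fun i => ε * w' i) (Sum.elim ξ ξ')
    ?_ ?_ fun m hm => ?_
  · rintro (i | i)
    · exact mul_nonneg (sub_nonneg.2 hε) (hw i)
    · exact mul_nonneg h0 (hw' i)
  · rw [Fintype.sum_sum_type]
    simp only [Sum.elim_inl, Sum.elim_inr, ← mul_sum, h1, h1']
    ring
  · rw [Fintype.sum_sum_type, hg m hm, hg' m hm, mul_sum, mul_sum]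
    simp only [Sum.elim_inl, Sum.elim_inr]
    push_cast
    congr 1 <;> exact sum_congr rfl fun i _ => by ring

/-- A mixture of finitely many laws. -/
lemma mix {β : Type*} [Fintype β] (t : β → ℝ) (f : β → ℕ → ℂ) (ht : ∀ b, 0 ≤ t b)
    (ht1 : ∑ b, t b = 1) (h : ∀ b, IsMom S (f b)) :
    IsMom S fun m => ∑ b, (t b : ℂ) * f b m := by
  choose n w ξ hw h1 hg using h
  refine of_fintype (fun p : (b : β) × Fin (n b) => t p.1 * w p.1 p.2) (fun p => ξ p.1 p.2)
    (fun p => mul_nonneg (ht _) (hw _ _)) ?_ fun m hm => ?_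
  · rw [Fintype.sum_sigma]
    simp only [← mul_sum, h1, mul_one, ht1]
  · rw [Fintype.sum_sigma]
    refine sum_congr rfl fun b _ => ?_
    rw [hg b m hm, mul_sum]
    exact sum_congr rfl fun i _ => by push_cast; ring

/-- The reflected law. -/
protected lemma conjugate (h : IsMom S g) : IsMom S fun m => conj (g m) := by
  obtain ⟨n, w, ξ, hw, h1, hg⟩ := h
  refine ⟨n, w, fun i => -ξ i, hw, h1, fun m hm => ?_⟩
  simp only [hg m hm, map_sum]
  refine sum_congr rfl fun i _ => ?_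
  rw [map_mul, Complex.conj_ofReal, mul_neg, fe_neg]

/-- Moments have norm at most one. -/
lemma norm_le_one (h : IsMom S g) {m : ℕ} (hm : m ∈ S) : ‖g m‖ ≤ 1 := by
  obtain ⟨n, w, ξ, hw, h1, hg⟩ := h
  rw [hg m hm, ← h1]
  refine (norm_sum_le _ _).trans (sum_le_sum fun i _ => ?_)
  rw [norm_mul, norm_fe, mul_one, Complex.norm_real, Real.norm_of_nonneg (hw i)]

/-- The uniform law on a shifted group of `q`-th roots of unity. -/
lemma roots (S : Finset ℕ) {q : ℕ} (hq : 0 < q) (x : ℝ) :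
    IsMom S fun m => if q ∣ m then fe (m * x) else 0 := by
  refine of_fintype (fun _ : Fin q => (q : ℝ)⁻¹) (fun k => x + (k : ℕ) / (q : ℝ))
    (fun _ => by positivity) (by simp [hq.ne']) fun m _ => ?_
  have hq' : (q : ℂ) ≠ 0 := Nat.cast_ne_zero.2 hq.ne'
  have e : ∀ k : Fin q, fe (m * (x + (k : ℕ) / (q : ℝ))) =
      fe (m * x) * fe (((m : ℤ) : ℝ) * (k : ℕ) / q) := fun k => by
    rw [← fe_add]; congr 1; push_cast; ring
  simp only [e, ← mul_sum, sum_fe_fin q hq, Int.natCast_dvd_natCast]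
  split_ifs with h
  · push_cast; field_simp
  · simp

/-- Small prescribed moments: every sequence of total mass at most `1/2` on positive indices is a
moment sequence. -/
lemma small (hS : ∀ m ∈ S, 0 < m) (c : ℕ → ℂ) (hc : ∑ m ∈ S, ‖c m‖ ≤ 1 / 2) : IsMom S c := by
  set M : ℕ := 2 * S.sup id + 1
  have hM : 0 < M := Nat.succ_pos _
  have hMC : (M : ℂ) ≠ 0 := Nat.cast_ne_zero.2 hM.ne'
  have hle : ∀ m ∈ S, 2 * m < M := fun m hm => by
    have : id m ≤ S.sup id := le_sup hm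
    simp only [id_eq] at this
    omega
  have hE : ∀ a : ℤ, ¬ (M : ℤ) ∣ a → ∑ k : Fin M, fe ((a : ℝ) * (k : ℕ) / M) = 0 :=
    fun a ha => by rw [sum_fe_fin M hM, if_neg ha]
  have hnd : ∀ a : ℤ, a ≠ 0 → |a| < (M : ℤ) → ¬ (M : ℤ) ∣ a := fun a ha h hd =>
    ha (Int.eq_zero_of_abs_lt_dvd hd h)
  set Φ : Fin M → ℕ → ℂ := fun k m => fe ((m : ℝ) * ((k : ℕ) / M)) with hΦ
  set v : Fin M → ℂ := fun k => 1 + ∑ m ∈ S, (c m * conj (Φ k m) + conj (c m) * Φ k m) with hv
  have hre : ∀ k, v k = (((v k).re : ℝ) : ℂ) := fun k => by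
    refine (Complex.conj_eq_iff_re.1 ?_).symm
    simp only [hv, map_add, map_one, map_sum, map_mul, Complex.conj_conj]
    congr 1
    exact sum_congr rfl fun m _ => add_comm _ _
  have hpos : ∀ k, 0 ≤ (v k).re := fun k => by
    have h1 : ‖∑ m ∈ S, (c m * conj (Φ k m) + conj (c m) * Φ k m)‖ ≤ 1 := by
      refine (norm_sum_le _ _).trans ((sum_le_sum (g := fun m => 2 * ‖c m‖) fun m _ =>
        (norm_add_le _ _).trans ?_).trans ?_)
      · simp only [hΦ, norm_mul, Complex.norm_conj, norm_fe]; linarith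
      · rw [← mul_sum]; linarith
    have h2 := (abs_le.1 (Complex.abs_re_le_norm
      (∑ m ∈ S, (c m * conj (Φ k m) + conj (c m) * Φ k m)))).1
    simp only [hv, Complex.add_re, Complex.one_re]
    linarith
  have key : ∀ a : ℤ, 0 ≤ a → 2 * a < M → ∑ k : Fin M, v k * fe ((a : ℝ) * (k : ℕ) / M) =
      (if a = 0 then (M : ℂ) else 0) +
        ∑ m ∈ S, if a = m then (M : ℂ) * c m else 0 := by
    intro a ha0 ha
    simp only [hv, add_mul, one_mul, sum_mul, sum_add_distrib]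
    rw [sum_fe_fin M hM, sum_comm (s := univ) (t := S), sum_comm (s := univ) (t := S)]
    congr 1
    · by_cases h : a = 0
      · simp [h]
      · rw [if_neg h, if_neg (hnd a h (by rw [abs_lt]; omega))]
    · rw [← sum_add_distrib]
      refine sum_congr rfl fun m hm => ?_
      have hm0 := hS m hm
      have hm1 := hle m hm
      have e1 : ∀ k : Fin M, c m * conj (Φ k m) * fe ((a : ℝ) * (k : ℕ) / M) =
          c m * fe (((a - m : ℤ) : ℝ) * (k : ℕ) / M) := fun k => by
        simp only [hΦ, ← fe_neg, mul_assoc, ← fe_add]; congr 2; push_cast; ring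
      have e2 : ∀ k : Fin M, conj (c m) * Φ k m * fe ((a : ℝ) * (k : ℕ) / M) =
          conj (c m) * fe (((a + m : ℤ) : ℝ) * (k : ℕ) / M) := fun k => by
        simp only [hΦ, mul_assoc, ← fe_add]; congr 2; push_cast; ring
      simp only [e1, e2, ← mul_sum]
      rw [hE (a + m) (hnd _ (by omega) (by rw [abs_lt]; omega)), mul_zero, add_zero]
      split_ifs with h
      · subst h; rw [sum_fe_fin M hM, sub_self, if_pos (dvd_zero _), mul_comm]
      · rw [hE (a - m) (hnd _ (by omega) (by rw [abs_lt]; omega)), mul_zero]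
  refine of_fintype (fun k : Fin M => (v k).re / M) (fun k => (k : ℕ) / (M : ℝ))
    (fun k => div_nonneg (hpos k) (by positivity)) ?_ fun m hm => ?_
  · have h0 := key 0 le_rfl (by positivity)
    rw [if_pos rfl, sum_eq_zero (fun m hm => if_neg (by have := hS m hm; omega)), add_zero] at h0
    simp only [Int.cast_zero, zero_mul, zero_div, fe_zero, mul_one] at h0
    have h1 : ((∑ k, (v k).re : ℝ) : ℂ) = (M : ℂ) := by
      push_cast
      rw [← h0]
      exact sum_congr rfl fun k _ => (hre k).symm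
    rw [← sum_div, show ∑ k, (v k).re = (M : ℝ) from by exact_mod_cast h1,
      div_self (Nat.cast_ne_zero.2 hM.ne')]
  · have h0 := key m (Int.natCast_nonneg m) (by have := hle m hm; omega)
    rw [if_neg (by have := hS m hm; omega), zero_add, sum_eq_single m (fun b _ hb => if_neg (by
      simpa using Ne.symm hb)) (fun h => absurd hm h), if_pos rfl] at h0
    have e : ∀ k : Fin M, (((v k).re / M : ℝ) : ℂ) * fe (m * ((k : ℕ) / (M : ℝ))) =
        (M : ℂ)⁻¹ * (v k * fe (((m : ℤ) : ℝ) * (k : ℕ) / M)) := fun k => by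
      conv_rhs => rw [hre k]
      rw [Int.cast_natCast, mul_div_assoc]
      push_cast
      ring
    simp only [e, ← mul_sum, h0]
    field_simp

end IsMom

/-! ### Fourier coefficients -/

lemma coef1_add (ℓ : ℕ) (g h : ℕ → ℂ) (u : ℕ) :
    coef1 ℓ (fun r => g r + h r) u = coef1 ℓ g u + coef1 ℓ h u := by
  simp [coef1, add_mul, sum_add_distrib, mul_add]

lemma coef1_const_mul (ℓ : ℕ) (a : ℂ) (g : ℕ → ℂ) (u : ℕ) :
    coef1 ℓ (fun r => a * g r) u = a * coef1 ℓ g u := by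
  simp only [coef1, mul_assoc, ← mul_sum]
  ring

lemma coef1_finsetSum {β : Type*} (ℓ : ℕ) (s : Finset β) (g : β → ℕ → ℂ) (u : ℕ) :
    coef1 ℓ (fun r => ∑ b ∈ s, g b r) u = ∑ b ∈ s, coef1 ℓ (g b) u := by
  simp only [coef1, sum_mul]
  rw [sum_comm, mul_sum]

lemma coef1_fe {ℓ : ℕ} {v u : ℕ} (hv : v < ℓ) (hu : u < ℓ) :
    coef1 ℓ (fun r => fe ((v : ℝ) * r / ℓ)) u = if v = u then 1 else 0 := by
  have e : ∀ r : ℕ, fe ((v : ℝ) * r / ℓ) * fe (-((u : ℝ) * r / ℓ)) =
      fe ((((v : ℤ) - u : ℤ) : ℝ) * r / ℓ) := fun r => by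
    rw [← fe_add]; congr 1; push_cast; ring
  simp only [coef1, e, sum_fe_range ℓ (by omega)]
  by_cases h : v = u
  · subst h
    simp only [sub_self, dvd_zero, if_true]
    exact inv_mul_cancel₀ (Nat.cast_ne_zero.2 (by omega))
  · rw [if_neg h, if_neg, mul_zero]
    intro hd
    have := Int.eq_zero_of_abs_lt_dvd hd (by rw [abs_lt]; omega)
    omega

end Vale.Agent.P110.Exist
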